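import Mathlib
import Vale.Agent.Lib.P226.helper35.ProjC

/-!
# P226: the projection bound for a general norm-multiplicative bilinear map

Let `qm : ℝ^d × ℝ³ → ℝ^d` be bilinear with `|qm q y| = |q| |y|`, with adjoint `qa` in the second
variable. Then every measurable partition `A` of `ℝ^d` into `n` cells admits a measurable
partition `B` of `ℝ³` into `n` cells with
`(E|g₃|)² F(A) ≤ (3 / d) (E|g_d|)² F(B)`,
where `F` is the sum of the squared norms of the Gaussian first moments of the cells.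
The argument is the one of `helper35/ProjC.lean` (the case of the quaternions, `d = 4`); the
second-moment identity is proved here in every dimension through reflections.
-/

open MeasureTheory ProbabilityTheory

namespace Vale.Agent.Lib.P226.H50P

open Vale.Agent.Lib.P226.H35P (hsup le_hsup hsup_smul hsup_zero abs_hsup_le continuous_hsup
  norm_sq3 E3 integrable_norm3 amgm_aux)

/-- The Euclidean space of dimension `d`. -/
abbrev EE (d : ℕ) := EuclideanSpace ℝ (Fin d)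

/-- A bilinear map `ℝ^d × ℝ³ → ℝ^d` with multiplicative norm, together with its adjoint in the
second variable. -/
structure IsComp {d : ℕ} (qm : EE d → E3 → EE d) (qa : EE d → EE d → E3) : Prop where
  add_left : ∀ a b y, qm (a + b) y = qm a y + qm b y
  smul_left : ∀ (t : ℝ) a y, qm (t • a) y = t • qm a y
  smul_right : ∀ q (t : ℝ) y, qm q (t • y) = t • qm q y
  norm_qm : ∀ q y, ‖qm q y‖ = ‖q‖ * ‖y‖
  cont : Continuous (fun p : EE d × E3 => qm p.1 p.2)
  inner_qm : ∀ q y z, inner ℝ (qm q y) z = inner ℝ y (qa q z)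

section general

variable {d : ℕ}

theorem integrable_norm_E : Integrable (fun q : EE d => ‖q‖) (stdGaussian (EE d)) :=
  (IsGaussian.integrable_id (μ := stdGaussian (EE d))).norm

/-- A measurable function bounded by a multiple of the norm is integrable for the standard
Gaussian measure. -/
theorem integrable_of_bound (f : EE d → ℝ) (hm : Measurable f) (C : ℝ)
    (hb : ∀ q, |f q| ≤ C * ‖q‖) : Integrable f (stdGaussian (EE d)) := by
  refine Integrable.mono' (integrable_norm_E.const_mul C) hm.aestronglyMeasurable ?_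
  filter_upwards with q
  rw [Real.norm_eq_abs]
  exact hb q

/-- Invariance of the standard Gaussian measure under a linear isometry equivalence. -/
theorem integral_iso (R : EE d ≃ₗᵢ[ℝ] EE d) (f : EE d → ℝ) :
    ∫ q, f (R q) ∂(stdGaussian (EE d)) = ∫ q, f q ∂(stdGaussian (EE d)) := by
  have h := stdGaussian_map R
  have h2 : Measure.map (⇑R.toHomeomorph.toMeasurableEquiv) (stdGaussian (EE d))
      = stdGaussian (EE d) := h
  conv_rhs => rw [← h2]
  rw [integral_map_equiv]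
  rfl

theorem inner_sq_le (q z : EE d) : inner ℝ q z ^ 2 ≤ ‖q‖ ^ 2 * ‖z‖ ^ 2 := by
  have h := abs_real_inner_le_norm q z
  have h2 : |inner ℝ q z| ^ 2 ≤ (‖q‖ * ‖z‖) ^ 2 := pow_le_pow_left₀ (abs_nonneg _) h 2
  rw [sq_abs] at h2
  linarith [mul_pow ‖q‖ ‖z‖ 2]

theorem sq_div_norm_le (a : ℝ) (q z : EE d) (ha0 : 0 ≤ a) (ha : a ≤ ‖q‖ ^ 2 * ‖z‖ ^ 2) :
    |a / ‖q‖| ≤ ‖z‖ ^ 2 * ‖q‖ := by
  rw [abs_div, abs_norm, abs_of_nonneg ha0]
  by_cases hq : q = 0
  · subst hq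
    simp
  · have hq' : 0 < ‖q‖ := norm_pos_iff.2 hq
    rw [div_le_iff₀ hq']
    nlinarith

theorem integrable_sq_div (z : EE d) :
    Integrable (fun q : EE d => inner ℝ q z ^ 2 / ‖q‖) (stdGaussian (EE d)) :=
  integrable_of_bound _ (by fun_prop) (‖z‖ ^ 2)
    (fun q => sq_div_norm_le _ q z (sq_nonneg _) (inner_sq_le q z))

/-- The second moment `E[⟨q, v⟩² / |q|]` depends on `v` only through its norm. -/
theorem integral_inner_sq_eq_of_norm_eq (v w : EE d) (h : ‖v‖ = ‖w‖) :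
    ∫ q, inner ℝ q v ^ 2 / ‖q‖ ∂(stdGaussian (EE d))
      = ∫ q, inner ℝ q w ^ 2 / ‖q‖ ∂(stdGaussian (EE d)) := by
  obtain ⟨R, hRv⟩ : ∃ R : EE d ≃ₗᵢ[ℝ] EE d, R v = w := ⟨_, Submodule.reflection_sub h⟩
  have hi := integral_iso R (fun q => inner ℝ q w ^ 2 / ‖q‖)
  rw [← hi]
  refine integral_congr_ae (Filter.Eventually.of_forall fun q => ?_)
  show inner ℝ q v ^ 2 / ‖q‖ = inner ℝ (R q) w ^ 2 / ‖R q‖
  rw [LinearIsometryEquiv.norm_map, ← hRv, LinearIsometryEquiv.inner_map_map]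

theorem sum_inner_single_sq (q : EE d) :
    ∑ j : Fin d, inner ℝ q (EuclideanSpace.single j (1 : ℝ)) ^ 2 = ‖q‖ ^ 2 := by
  rw [EuclideanSpace.real_norm_sq_eq]
  refine Finset.sum_congr rfl (fun j _ => ?_)
  rw [EuclideanSpace.inner_single_right]
  simp

/-- The second-moment identity `E[⟨q, z⟩² / |q|] = |z|² E|q| / d` for the standard Gaussian
vector of `ℝ^d`. -/
theorem integral_inner_sq_div (hd : 0 < d) (z : EE d) :
    ∫ q, inner ℝ q z ^ 2 / ‖q‖ ∂(stdGaussian (EE d))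
      = ‖z‖ ^ 2 / d * ∫ q, ‖q‖ ∂(stdGaussian (EE d)) := by
  have hj : ∀ j : Fin d, ∫ q, inner ℝ q z ^ 2 / ‖q‖ ∂(stdGaussian (EE d))
      = ‖z‖ ^ 2 * ∫ q, inner ℝ q (EuclideanSpace.single j (1 : ℝ)) ^ 2 / ‖q‖
          ∂(stdGaussian (EE d)) := by
    intro j
    have hn : ‖z‖ = ‖(‖z‖ • EuclideanSpace.single j (1 : ℝ) : EE d)‖ := by
      rw [norm_smul, norm_norm]
      simp
    rw [integral_inner_sq_eq_of_norm_eq z _ hn, ← integral_const_mul]
    refine integral_congr_ae (Filter.Eventually.of_forall fun q => ?_)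
    show inner ℝ q (‖z‖ • EuclideanSpace.single j (1 : ℝ)) ^ 2 / ‖q‖
      = ‖z‖ ^ 2 * (inner ℝ q (EuclideanSpace.single j (1 : ℝ)) ^ 2 / ‖q‖)
    rw [real_inner_smul_right]
    ring
  have hsum : ∑ j : Fin d, ∫ q, inner ℝ q (EuclideanSpace.single j (1 : ℝ)) ^ 2 / ‖q‖
      ∂(stdGaussian (EE d)) = ∫ q, ‖q‖ ∂(stdGaussian (EE d)) := by
    rw [← integral_finsetSum _ (fun j _ => integrable_sq_div (EuclideanSpace.single j (1 : ℝ)))]
    refine integral_congr_ae (Filter.Eventually.of_forall fun q => ?_)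
    show ∑ j : Fin d, inner ℝ q (EuclideanSpace.single j (1 : ℝ)) ^ 2 / ‖q‖ = ‖q‖
    rw [← Finset.sum_div, sum_inner_single_sq]
    by_cases hq : q = 0
    · subst hq
      simp
    · have := norm_ne_zero_iff.2 hq
      field_simp
  have hd' : (d : ℝ) ≠ 0 := by exact_mod_cast hd.ne'
  have h3 : (d : ℝ) * ∫ q, inner ℝ q z ^ 2 / ‖q‖ ∂(stdGaussian (EE d))
      = ‖z‖ ^ 2 * ∫ q, ‖q‖ ∂(stdGaussian (EE d)) := by
    rw [← hsum, Finset.mul_sum]
    calc (d : ℝ) * ∫ q, inner ℝ q z ^ 2 / ‖q‖ ∂(stdGaussian (EE d))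
        = ∑ _j : Fin d, ∫ q, inner ℝ q z ^ 2 / ‖q‖ ∂(stdGaussian (EE d)) := by
          rw [Finset.sum_const, Finset.card_univ, Fintype.card_fin, nsmul_eq_mul]
      _ = _ := Finset.sum_congr rfl (fun j _ => hj j)
  rw [div_mul_eq_mul_div, eq_div_iff hd', mul_comm]
  exact h3

end general

section comp

variable {d : ℕ} {qm : EE d → E3 → EE d} {qa : EE d → EE d → E3}

theorem IsComp.qm_zero_right (hc : IsComp qm qa) (q : EE d) : qm q 0 = 0 := by
  have h := hc.smul_right q 0 0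
  simpa using h

/-- Multiplication by a fixed vector of `ℝ³`, as a linear map. -/
noncomputable def qmLin (hc : IsComp qm qa) (y : E3) : EE d →ₗ[ℝ] EE d where
  toFun q := qm q y
  map_add' a b := hc.add_left a b y
  map_smul' t a := hc.smul_left t a y

/-- Multiplication by a fixed unit vector of `ℝ³`, as a linear isometry equivalence. -/
noncomputable def qmIso (hc : IsComp qm qa) (y : E3) (hy : ‖y‖ = 1) : EE d ≃ₗᵢ[ℝ] EE d :=
  LinearIsometry.toLinearIsometryEquiv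
    ⟨qmLin hc y, fun q => by
      show ‖qm q y‖ = ‖q‖
      rw [hc.norm_qm, hy, mul_one]⟩ rfl

theorem integral_qm (hc : IsComp qm qa) (y : E3) (hy : ‖y‖ = 1) (f : EE d → ℝ) :
    ∫ q, f (qm q y) ∂(stdGaussian (EE d)) = ∫ q, f q ∂(stdGaussian (EE d)) :=
  integral_iso (qmIso hc y hy) f

theorem integrable_hsup_qm (hc : IsComp qm qa) {m : ℕ} (z : Fin (m + 1) → EE d) :
    Integrable (Function.uncurry (fun (q : EE d) (y : E3) => hsup z (qm q y)))
      ((stdGaussian (EE d)).prod (stdGaussian E3)) := by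
  have h3 : Integrable (fun p : EE d × E3 => (∑ i, ‖z i‖) * (‖p.1‖ * ‖p.2‖))
      ((stdGaussian (EE d)).prod (stdGaussian E3)) :=
    (integrable_norm_E.mul_prod integrable_norm3).const_mul _
  refine Integrable.mono' h3 ?_ ?_
  · exact ((continuous_hsup z).comp hc.cont).aestronglyMeasurable
  · filter_upwards with p
    rw [Real.norm_eq_abs]
    show |hsup z (qm p.1 p.2)| ≤ _
    calc |hsup z (qm p.1 p.2)| ≤ (∑ i, ‖z i‖) * ‖qm p.1 p.2‖ := abs_hsup_le _ _
      _ = (∑ i, ‖z i‖) * (‖p.1‖ * ‖p.2‖) := by rw [hc.norm_qm]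

theorem integral_hsup_qm_left (hc : IsComp qm qa) {m : ℕ} (z : Fin (m + 1) → EE d) (y : E3) :
    ∫ q, hsup z (qm q y) ∂(stdGaussian (EE d))
      = ‖y‖ * ∫ q, hsup z q ∂(stdGaussian (EE d)) := by
  by_cases hy : y = 0
  · subst hy
    simp [hc.qm_zero_right, hsup_zero]
  · have hn : ‖y‖ ≠ 0 := norm_ne_zero_iff.2 hy
    have hu1 : ‖(‖y‖⁻¹ • y : E3)‖ = 1 := by
      rw [norm_smul, norm_inv, norm_norm, inv_mul_cancel₀ hn]
    have hyu : ‖y‖ • (‖y‖⁻¹ • y : E3) = y := by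
      rw [smul_smul, mul_inv_cancel₀ hn, one_smul]
    have h : ∀ q, hsup z (qm q y) = ‖y‖ * hsup z (qm q (‖y‖⁻¹ • y)) := by
      intro q
      calc hsup z (qm q y) = hsup z (qm q (‖y‖ • (‖y‖⁻¹ • y : E3))) := by rw [hyu]
        _ = hsup z (‖y‖ • qm q (‖y‖⁻¹ • y)) := by rw [hc.smul_right]
        _ = ‖y‖ * hsup z (qm q (‖y‖⁻¹ • y)) := hsup_smul z _ (norm_nonneg _) _
    simp_rw [h]
    rw [integral_const_mul, integral_qm hc _ hu1]

theorem swap_identity (hc : IsComp qm qa) {m : ℕ} (z : Fin (m + 1) → EE d) :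
    ∫ q, (∫ y, hsup z (qm q y) ∂(stdGaussian E3)) ∂(stdGaussian (EE d))
      = (∫ y, ‖y‖ ∂(stdGaussian E3)) * ∫ q, hsup z q ∂(stdGaussian (EE d)) := by
  rw [integral_integral_swap (integrable_hsup_qm hc z)]
  simp_rw [integral_hsup_qm_left hc]
  rw [integral_mul_const]

theorem hsup_qm (hc : IsComp qm qa) {m : ℕ} (z : Fin (m + 1) → EE d) (q : EE d) (y : E3) :
    hsup z (qm q y) = hsup (fun i => qa q (z i)) y := by
  unfold hsup
  refine Finset.sup'_congr _ rfl (fun i _ => ?_)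
  rw [hc.inner_qm]

theorem IsComp.norm_qa_le (hc : IsComp qm qa) (q z : EE d) : ‖qa q z‖ ≤ ‖q‖ * ‖z‖ := by
  by_cases h0 : qa q z = 0
  · rw [h0, norm_zero]
    positivity
  · have hpos : 0 < ‖qa q z‖ := norm_pos_iff.2 h0
    have h1 : ‖qa q z‖ ^ 2 = inner ℝ (qm q (qa q z)) z := by
      rw [hc.inner_qm, real_inner_self_eq_norm_sq]
    have h2 : inner ℝ (qm q (qa q z)) z ≤ ‖qm q (qa q z)‖ * ‖z‖ := real_inner_le_norm _ _
    rw [hc.norm_qm] at h2
    have h3 : ‖qa q z‖ * ‖qa q z‖ ≤ ‖qa q z‖ * (‖q‖ * ‖z‖) := by nlinarith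
    exact le_of_mul_le_mul_left h3 hpos

theorem IsComp.norm_qa_sq_le (hc : IsComp qm qa) (q z : EE d) :
    ‖qa q z‖ ^ 2 ≤ ‖q‖ ^ 2 * ‖z‖ ^ 2 := by
  have h := hc.norm_qa_le q z
  have h2 : ‖qa q z‖ ^ 2 ≤ (‖q‖ * ‖z‖) ^ 2 := pow_le_pow_left₀ (norm_nonneg _) h 2
  rw [mul_pow] at h2
  exact h2

theorem IsComp.coord_qa (hc : IsComp qm qa) (q z : EE d) (l : Fin 3) :
    (qa q z) l = inner ℝ (qm q (EuclideanSpace.single l (1 : ℝ))) z := by
  rw [hc.inner_qm]
  simp [EuclideanSpace.inner_single_left]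

theorem IsComp.norm_qa_sq_eq (hc : IsComp qm qa) (q z : EE d) :
    ‖qa q z‖ ^ 2 = ∑ l : Fin 3, inner ℝ (qm q (EuclideanSpace.single l (1 : ℝ))) z ^ 2 := by
  rw [norm_sq3, Fin.sum_univ_three, hc.coord_qa, hc.coord_qa, hc.coord_qa]

theorem IsComp.cont_left (hc : IsComp qm qa) (y : E3) : Continuous (fun q : EE d => qm q y) :=
  hc.cont.comp (Continuous.prodMk continuous_id continuous_const)

theorem single_norm (l : Fin 3) : ‖(EuclideanSpace.single l (1 : ℝ) : E3)‖ = 1 := by simp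

theorem integrable_term (hc : IsComp qm qa) (z : EE d) (l : Fin 3) :
    Integrable (fun q : EE d => inner ℝ (qm q (EuclideanSpace.single l (1 : ℝ))) z ^ 2 / ‖q‖)
      (stdGaussian (EE d)) := by
  have hcl := hc.cont_left (EuclideanSpace.single l (1 : ℝ))
  refine integrable_of_bound _ ?_ (‖z‖ ^ 2) (fun q => sq_div_norm_le _ q z (sq_nonneg _) ?_)
  · have hc2 : Continuous (fun q : EE d => inner ℝ (qm q (EuclideanSpace.single l (1 : ℝ))) z) :=
      hcl.inner continuous_const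
    exact ((hc2.measurable.pow_const 2).div measurable_norm)
  · have h := inner_sq_le (qm q (EuclideanSpace.single l (1 : ℝ))) z
    rw [hc.norm_qm, single_norm, mul_one] at h
    exact h

theorem integral_term (hc : IsComp qm qa) (z : EE d) (l : Fin 3) :
    ∫ q, inner ℝ (qm q (EuclideanSpace.single l (1 : ℝ))) z ^ 2 / ‖q‖ ∂(stdGaussian (EE d))
      = ∫ q, inner ℝ q z ^ 2 / ‖q‖ ∂(stdGaussian (EE d)) := by
  have h := integral_qm hc (EuclideanSpace.single l (1 : ℝ)) (single_norm l)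
    (fun q => inner ℝ q z ^ 2 / ‖q‖)
  rw [← h]
  refine integral_congr_ae (Filter.Eventually.of_forall fun q => ?_)
  show inner ℝ (qm q (EuclideanSpace.single l (1 : ℝ))) z ^ 2 / ‖q‖
    = inner ℝ (qm q (EuclideanSpace.single l (1 : ℝ))) z ^ 2
      / ‖qm q (EuclideanSpace.single l (1 : ℝ))‖
  rw [hc.norm_qm, single_norm, mul_one]

theorem integrable_norm_qa_sq_div (hc : IsComp qm qa) (z : EE d) :
    Integrable (fun q : EE d => ‖qa q z‖ ^ 2 / ‖q‖) (stdGaussian (EE d)) := by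
  have h : (fun q : EE d => ‖qa q z‖ ^ 2 / ‖q‖)
      = fun q => ∑ l : Fin 3, inner ℝ (qm q (EuclideanSpace.single l (1 : ℝ))) z ^ 2 / ‖q‖ := by
    funext q
    rw [hc.norm_qa_sq_eq, Finset.sum_div]
  rw [h]
  exact integrable_finsetSum _ (fun l _ => integrable_term hc z l)

/-- The key second-moment identity: `E[|qa q z|² / |q|] = (3/d) |z|² E|q|`. -/
theorem integral_norm_qa_sq_div (hc : IsComp qm qa) (hd : 0 < d) (z : EE d) :
    ∫ q, ‖qa q z‖ ^ 2 / ‖q‖ ∂(stdGaussian (EE d))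
      = 3 / d * ‖z‖ ^ 2 * ∫ q, ‖q‖ ∂(stdGaussian (EE d)) := by
  have h : (fun q : EE d => ‖qa q z‖ ^ 2 / ‖q‖)
      = fun q => ∑ l : Fin 3, inner ℝ (qm q (EuclideanSpace.single l (1 : ℝ))) z ^ 2 / ‖q‖ := by
    funext q
    rw [hc.norm_qa_sq_eq, Finset.sum_div]
  rw [h, integral_finsetSum _ (fun l _ => integrable_term hc z l)]
  simp_rw [integral_term hc, integral_inner_sq_div hd]
  rw [Finset.sum_const, Finset.card_univ, Fintype.card_fin, nsmul_eq_mul]
  push_cast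
  ring

theorem sum_norm_qa_sq_le (hc : IsComp qm qa) {m : ℕ} (z : Fin (m + 1) → EE d) (q : EE d) :
    ∑ i, ‖qa q (z i)‖ ^ 2 ≤ ‖q‖ ^ 2 * ∑ i, ‖z i‖ ^ 2 := by
  rw [Finset.mul_sum]
  exact Finset.sum_le_sum (fun i _ => hc.norm_qa_sq_le q (z i))

theorem measurable_sqrt_sum (hc : IsComp qm qa) {m : ℕ} (z : Fin (m + 1) → EE d) :
    Measurable (fun q : EE d => Real.sqrt (∑ i, ‖qa q (z i)‖ ^ 2)) := by
  have h : (fun q : EE d => Real.sqrt (∑ i, ‖qa q (z i)‖ ^ 2))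
      = fun q => Real.sqrt (∑ i, ∑ l : Fin 3,
          inner ℝ (qm q (EuclideanSpace.single l (1 : ℝ))) (z i) ^ 2) := by
    funext q
    congr 1
    exact Finset.sum_congr rfl (fun i _ => hc.norm_qa_sq_eq q (z i))
  rw [h]
  refine Measurable.sqrt ?_
  refine Finset.measurable_sum _ (fun i _ => Finset.measurable_sum _ (fun l _ => ?_))
  exact (((hc.cont_left (EuclideanSpace.single l (1 : ℝ))).inner
    continuous_const).measurable.pow_const 2)

theorem integrable_sqrt_sum (hc : IsComp qm qa) {m : ℕ} (z : Fin (m + 1) → EE d) :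
    Integrable (fun q : EE d => Real.sqrt (∑ i, ‖qa q (z i)‖ ^ 2)) (stdGaussian (EE d)) := by
  refine integrable_of_bound _ (measurable_sqrt_sum hc z) (Real.sqrt (∑ i, ‖z i‖ ^ 2))
    (fun q => ?_)
  rw [abs_of_nonneg (Real.sqrt_nonneg _)]
  calc Real.sqrt (∑ i, ‖qa q (z i)‖ ^ 2) ≤ Real.sqrt (‖q‖ ^ 2 * ∑ i, ‖z i‖ ^ 2) :=
        Real.sqrt_le_sqrt (sum_norm_qa_sq_le hc z q)
    _ = Real.sqrt (∑ i, ‖z i‖ ^ 2) * ‖q‖ := by
        rw [Real.sqrt_mul (sq_nonneg _), Real.sqrt_sq (norm_nonneg _), mul_comm]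

/-- `E sqrt(S(q)) ≤ sqrt(3F/d) E|q|`, where `S(q) = ∑ |qa q z_i|²` and `F = ∑ |z_i|²`. -/
theorem integral_sqrt_le (hc : IsComp qm qa) (hd : 0 < d) {m : ℕ} (z : Fin (m + 1) → EE d)
    (hF : 0 < ∑ i, ‖z i‖ ^ 2) :
    ∫ q, Real.sqrt (∑ i, ‖qa q (z i)‖ ^ 2) ∂(stdGaussian (EE d))
      ≤ Real.sqrt (3 / d * ∑ i, ‖z i‖ ^ 2) * ∫ q, ‖q‖ ∂(stdGaussian (EE d)) := by
  have hd' : (0 : ℝ) < d := by exact_mod_cast hd
  set F := ∑ i, ‖z i‖ ^ 2 with hFdef
  set lam := Real.sqrt (3 / d * F) with hlamdef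
  have hlam : 0 < lam := Real.sqrt_pos.2 (by positivity)
  have hlam2 : lam ^ 2 = 3 / d * F := Real.sq_sqrt (by positivity)
  have hpt : ∀ q : EE d, Real.sqrt (∑ i, ‖qa q (z i)‖ ^ 2)
      ≤ lam / 2 * ‖q‖ + 1 / (2 * lam) * ∑ i, ‖qa q (z i)‖ ^ 2 / ‖q‖ := by
    intro q
    have hS : 0 ≤ ∑ i, ‖qa q (z i)‖ ^ 2 := Finset.sum_nonneg (fun i _ => sq_nonneg _)
    by_cases hq : q = 0
    · have h0 : ∑ i, ‖qa q (z i)‖ ^ 2 = 0 := by
        have h1 := sum_norm_qa_sq_le hc z q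
        rw [hq, norm_zero] at h1
        have h2 : ∑ i, ‖qa (0 : EE d) (z i)‖ ^ 2 ≤ 0 := by simpa using h1
        rw [hq]
        exact le_antisymm h2 (Finset.sum_nonneg (fun i _ => sq_nonneg _))
      rw [h0, hq]
      simp
    · have ha : 0 < ‖q‖ := norm_pos_iff.2 hq
      rw [← Finset.sum_div]
      exact amgm_aux lam ‖q‖ _ hlam ha hS
  have hint : Integrable (fun q : EE d => lam / 2 * ‖q‖
      + 1 / (2 * lam) * ∑ i, ‖qa q (z i)‖ ^ 2 / ‖q‖) (stdGaussian (EE d)) :=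
    (integrable_norm_E.const_mul _).add
      ((integrable_finsetSum _ (fun i _ => integrable_norm_qa_sq_div hc (z i))).const_mul _)
  calc ∫ q, Real.sqrt (∑ i, ‖qa q (z i)‖ ^ 2) ∂(stdGaussian (EE d))
      ≤ ∫ q, (lam / 2 * ‖q‖ + 1 / (2 * lam) * ∑ i, ‖qa q (z i)‖ ^ 2 / ‖q‖)
          ∂(stdGaussian (EE d)) :=
        integral_mono_of_nonneg (Filter.Eventually.of_forall (fun q => Real.sqrt_nonneg _)) hint
          (Filter.Eventually.of_forall hpt)
    _ = lam / 2 * ∫ q, ‖q‖ ∂(stdGaussian (EE d))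
        + 1 / (2 * lam) * ∑ i, (3 / d * ‖z i‖ ^ 2 * ∫ q, ‖q‖ ∂(stdGaussian (EE d))) := by
        rw [integral_add (integrable_norm_E.const_mul _)
          ((integrable_finsetSum _ (fun i _ => integrable_norm_qa_sq_div hc (z i))).const_mul _),
          integral_const_mul, integral_const_mul,
          integral_finsetSum _ (fun i _ => integrable_norm_qa_sq_div hc (z i))]
        simp_rw [integral_norm_qa_sq_div hc hd]
    _ = lam * ∫ q, ‖q‖ ∂(stdGaussian (EE d)) := by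
        rw [← Finset.sum_mul, ← Finset.mul_sum, ← hFdef, ← hlam2]
        field_simp
        ring

/-- The projection bound for a norm-multiplicative bilinear map `ℝ^d × ℝ³ → ℝ^d`. -/
theorem projection_general (hc : IsComp qm qa) (hd : 0 < d)
    (hb : 0 < ∫ q, ‖q‖ ∂(stdGaussian (EE d))) (n : ℕ) (A : Fin n → Set (EE d))
    (hA : ∀ i, MeasurableSet (A i)) (hdisj : ∀ i j, i ≠ j → Disjoint (A i) (A j))
    (hcover : ⋃ i, A i = Set.univ) :
    ∃ B : Fin n → Set E3, (∀ i, MeasurableSet (B i)) ∧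
      (∀ i j, i ≠ j → Disjoint (B i) (B j)) ∧ ⋃ i, B i = Set.univ ∧
      (∫ y, ‖y‖ ∂(stdGaussian E3)) ^ 2 * ∑ i, ‖∫ x in A i, x ∂(stdGaussian (EE d))‖ ^ 2
        ≤ 3 / d * (∫ q, ‖q‖ ∂(stdGaussian (EE d))) ^ 2
          * ∑ i, ‖∫ x in B i, x ∂(stdGaussian E3)‖ ^ 2 := by
  rcases n with _ | m
  · exfalso
    have h : (⋃ i, A i) = ∅ := Set.iUnion_of_empty A
    rw [h] at hcover
    exact Set.empty_ne_univ hcover
  have hd' : (0 : ℝ) < d := by exact_mod_cast hd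
  have ha0 : 0 < ∫ y, ‖y‖ ∂(stdGaussian E3) := by
    rw [H77.integral_norm_stdGaussian_three]
    positivity
  set z : Fin (m + 1) → EE d := fun i => ∫ x in A i, x ∂(stdGaussian (EE d)) with hz
  set F := ∑ i, ‖z i‖ ^ 2 with hFdef
  set a := ∫ y, ‖y‖ ∂(stdGaussian E3) with hadef
  set b := ∫ q, ‖q‖ ∂(stdGaussian (EE d)) with hbdef
  by_contra hcon
  push Not at hcon
  have hF0 : 0 ≤ F := Finset.sum_nonneg (fun i _ => sq_nonneg _)
  have hFpos : 0 < F := by
    obtain ⟨V, hV1, hV2, hV3, -⟩ := H5.exists_partition_integral_sup_le 3 m (fun _ => 0)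
    have h1 := hcon V hV1 hV2 hV3
    have h0 : 0 ≤ 3 / d * b ^ 2 * ∑ i, ‖∫ x in V i, x ∂(stdGaussian E3)‖ ^ 2 := by
      positivity
    have h2 : 0 < a ^ 2 * F := lt_of_le_of_lt h0 h1
    by_contra hneg
    have hF00 : F = 0 := le_antisymm (not_lt.1 hneg) hF0
    rw [hF00, mul_zero] at h2
    exact lt_irrefl _ h2
  set lam := Real.sqrt (3 / d * F) with hlamdef
  have hlam : 0 < lam := Real.sqrt_pos.2 (by positivity)
  have hlam2 : lam ^ 2 = 3 / d * F := Real.sq_sqrt (by positivity)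
  set C := a * F / (lam * b) with hCdef
  have hC : 0 < C := by positivity
  have hC2 : 3 / d * b ^ 2 * C ^ 2 = a ^ 2 * F := by
    rw [hCdef, div_pow, mul_pow, mul_pow, hlam2]
    field_simp
  have hpt : ∀ q : EE d,
      (∫ y, hsup z (qm q y) ∂(stdGaussian E3)) ≤ C * Real.sqrt (∑ i, ‖qa q (z i)‖ ^ 2) ∧
      (0 < ∑ i, ‖qa q (z i)‖ ^ 2 →
        (∫ y, hsup z (qm q y) ∂(stdGaussian E3)) < C * Real.sqrt (∑ i, ‖qa q (z i)‖ ^ 2)) := by
    intro q
    obtain ⟨V, hV1, hV2, hV3, hV4⟩ :=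
      H5.exists_partition_integral_sup_le 3 m (fun i => qa q (z i))
    have hlt := hcon V hV1 hV2 hV3
    have hsq : Real.sqrt (∑ i, ‖∫ x in V i, x ∂(stdGaussian E3)‖ ^ 2) < C := by
      rw [Real.sqrt_lt' hC]
      have hk : 0 < 3 / d * b ^ 2 := by positivity
      rw [← hC2] at hlt
      exact lt_of_mul_lt_mul_left hlt hk.le
    have hu : (∫ y, hsup z (qm q y) ∂(stdGaussian E3))
        ≤ Real.sqrt (∑ i, ‖∫ x in V i, x ∂(stdGaussian E3)‖ ^ 2)
          * Real.sqrt (∑ i, ‖qa q (z i)‖ ^ 2) := by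
      simp_rw [hsup_qm hc]
      exact hV4
    constructor
    · exact hu.trans (mul_le_mul_of_nonneg_right hsq.le (Real.sqrt_nonneg _))
    · intro hSpos
      exact hu.trans_lt (mul_lt_mul_of_pos_right hsq (Real.sqrt_pos.2 hSpos))
  have hu_int : Integrable (fun q : EE d => ∫ y, hsup z (qm q y) ∂(stdGaussian E3))
      (stdGaussian (EE d)) := (integrable_hsup_qm hc z).integral_prod_left
  have hS_int := integrable_sqrt_sum hc z
  have h1 : a * F ≤ ∫ q, (∫ y, hsup z (qm q y) ∂(stdGaussian E3)) ∂(stdGaussian (EE d)) := by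
    rw [swap_identity hc]
    exact mul_le_mul_of_nonneg_left (H18.sum_sq_le_integral_sup d m A hA hdisj hcover)
      ha0.le
  have h2 : ∫ q, Real.sqrt (∑ i, ‖qa q (z i)‖ ^ 2) ∂(stdGaussian (EE d)) ≤ lam * b :=
    integral_sqrt_le hc hd z hFpos
  have hClam : C * (lam * b) = a * F := by
    rw [hCdef]
    field_simp
  have hw_nonneg : ∀ q : EE d, 0 ≤ C * Real.sqrt (∑ i, ‖qa q (z i)‖ ^ 2)
      - ∫ y, hsup z (qm q y) ∂(stdGaussian E3) := fun q => sub_nonneg.2 (hpt q).1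
  have hw_int : Integrable (fun q : EE d => C * Real.sqrt (∑ i, ‖qa q (z i)‖ ^ 2)
      - ∫ y, hsup z (qm q y) ∂(stdGaussian E3)) (stdGaussian (EE d)) :=
    (hS_int.const_mul C).sub hu_int
  have hw_le : ∫ q, (C * Real.sqrt (∑ i, ‖qa q (z i)‖ ^ 2)
      - ∫ y, hsup z (qm q y) ∂(stdGaussian E3)) ∂(stdGaussian (EE d)) ≤ 0 := by
    rw [integral_sub (hS_int.const_mul C) hu_int, integral_const_mul]
    have h3 := mul_le_mul_of_nonneg_left h2 hC.le
    linarith
  have hw0 : ∫ q, (C * Real.sqrt (∑ i, ‖qa q (z i)‖ ^ 2)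
      - ∫ y, hsup z (qm q y) ∂(stdGaussian E3)) ∂(stdGaussian (EE d)) = 0 :=
    le_antisymm hw_le (integral_nonneg hw_nonneg)
  have hae := (integral_eq_zero_iff_of_nonneg hw_nonneg hw_int).1 hw0
  have hS0 : (fun q : EE d => Real.sqrt (∑ i, ‖qa q (z i)‖ ^ 2)) =ᵐ[stdGaussian (EE d)] 0 := by
    filter_upwards [hae] with q hq
    by_contra hne
    have hSnn : 0 ≤ ∑ i, ‖qa q (z i)‖ ^ 2 := Finset.sum_nonneg (fun i _ => sq_nonneg _)
    have hSpos : 0 < ∑ i, ‖qa q (z i)‖ ^ 2 := by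
      rcases hSnn.lt_or_eq with h | h
      · exact h
      · exfalso
        apply hne
        rw [← h]
        simp
    have h3 := (hpt q).2 hSpos
    have h4 : C * Real.sqrt (∑ i, ‖qa q (z i)‖ ^ 2)
        - ∫ y, hsup z (qm q y) ∂(stdGaussian E3) = 0 := hq
    linarith
  have hint0 : ∫ q, Real.sqrt (∑ i, ‖qa q (z i)‖ ^ 2) ∂(stdGaussian (EE d)) = 0 := by
    rw [integral_congr_ae hS0]
    simp
  have h5 : ∫ q, (∫ y, hsup z (qm q y) ∂(stdGaussian E3)) ∂(stdGaussian (EE d))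
      ≤ C * ∫ q, Real.sqrt (∑ i, ‖qa q (z i)‖ ^ 2) ∂(stdGaussian (EE d)) := by
    rw [← integral_const_mul]
    exact integral_mono hu_int (hS_int.const_mul C) (fun q => (hpt q).1)
  rw [hint0, mul_zero] at h5
  have h6 : 0 < a * F := by positivity
  linarith

end comp

end Vale.Agent.Lib.P226.H50P
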