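import Mathlib
import Vale.Agent.Lib.P226.helper50.Comp

/-!
# P226: the projection bound from `ℝ⁸` to `ℝ³`

`ℝ⁸` is read as pairs of quaternions; a vector of `ℝ³` (a purely imaginary quaternion) acts on
both components by quaternion multiplication. This is a bilinear map with multiplicative norm, so
the general projection bound of `Comp.lean` applies, with the constant
`(3/8) (E|g₈| / E|g₃|)² = 3675 π² / 32768`.
-/

open MeasureTheory ProbabilityTheory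

namespace Vale.Agent.Lib.P226.H50P

open Vale.Agent.Lib.P226.H35P (E3 norm_sq3 inner3)

abbrev E8 := EuclideanSpace ℝ (Fin 8)

/-- Componentwise quaternion product of the pair of quaternions `q` with the purely imaginary
quaternion `y 0 i + y 1 j + y 2 k`. -/
noncomputable def qm8 (q : E8) (y : E3) : E8 :=
  !₂[-(q 1 * y 0) - q 2 * y 1 - q 3 * y 2,
     q 0 * y 0 + q 2 * y 2 - q 3 * y 1,
     q 0 * y 1 - q 1 * y 2 + q 3 * y 0,
     q 0 * y 2 + q 1 * y 1 - q 2 * y 0,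
     -(q 5 * y 0) - q 6 * y 1 - q 7 * y 2,
     q 4 * y 0 + q 6 * y 2 - q 7 * y 1,
     q 4 * y 1 - q 5 * y 2 + q 7 * y 0,
     q 4 * y 2 + q 5 * y 1 - q 6 * y 0]

/-- The adjoint of `y ↦ qm8 q y`, applied to `z`. -/
noncomputable def qa8 (q z : E8) : E3 :=
  !₂[-(q 1 * z 0) + q 0 * z 1 + q 3 * z 2 - q 2 * z 3
       - (q 5 * z 4) + q 4 * z 5 + q 7 * z 6 - q 6 * z 7,
     -(q 2 * z 0) - q 3 * z 1 + q 0 * z 2 + q 1 * z 3
       - (q 6 * z 4) - q 7 * z 5 + q 4 * z 6 + q 5 * z 7,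
     -(q 3 * z 0) + q 2 * z 1 - q 1 * z 2 + q 0 * z 3
       - (q 7 * z 4) + q 6 * z 5 - q 5 * z 6 + q 4 * z 7]

theorem norm_sq8 (q : E8) :
    ‖q‖ ^ 2 = q 0 ^ 2 + q 1 ^ 2 + q 2 ^ 2 + q 3 ^ 2 + q 4 ^ 2 + q 5 ^ 2 + q 6 ^ 2 + q 7 ^ 2 := by
  rw [EuclideanSpace.norm_sq_eq]
  simp [Fin.sum_univ_eight]

theorem inner8 (q z : E8) :
    inner ℝ (q) (z) = q 0 * z 0 + q 1 * z 1 + q 2 * z 2 + q 3 * z 3
      + q 4 * z 4 + q 5 * z 5 + q 6 * z 6 + q 7 * z 7 := by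
  simp [PiLp.inner_apply, Fin.sum_univ_eight]
  ring

theorem norm_qm8_sq (q : E8) (y : E3) : ‖qm8 q y‖ ^ 2 = ‖q‖ ^ 2 * ‖y‖ ^ 2 := by
  rw [norm_sq8, norm_sq8, norm_sq3]
  simp [qm8]
  ring

theorem norm_qm8 (q : E8) (y : E3) : ‖qm8 q y‖ = ‖q‖ * ‖y‖ := by
  have h := norm_qm8_sq q y
  have h1 : ‖qm8 q y‖ ^ 2 = (‖q‖ * ‖y‖) ^ 2 := by rw [h]; ring
  exact (sq_eq_sq₀ (norm_nonneg _) (by positivity)).1 h1

theorem inner_qm8 (q : E8) (y : E3) (z : E8) :
    inner ℝ (qm8 q y) (z) = inner ℝ (y) (qa8 q z) := by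
  rw [inner8, inner3]
  simp [qm8, qa8]
  ring

theorem continuous_qm8 : Continuous (fun p : E8 × E3 => qm8 p.1 p.2) := by
  unfold qm8
  fun_prop

theorem isComp8 : IsComp qm8 qa8 where
  add_left a b y := by
    ext i
    fin_cases i <;> simp [qm8] <;> ring
  smul_left t a y := by
    ext i
    fin_cases i <;> simp [qm8] <;> ring
  smul_right q t y := by
    ext i
    fin_cases i <;> simp [qm8] <;> ring
  norm_qm := norm_qm8
  cont := continuous_qm8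
  inner_qm := inner_qm8

open Real Set in
theorem radial_seven :
    ∫ y in Ioi (0 : ℝ), y ^ (7 : ℝ) * rexp (-(1 / 2 : ℝ) * y ^ (2 : ℝ)) = 48 := by
  rw [integral_rpow_mul_exp_neg_mul_rpow (by norm_num) (by norm_num) (by norm_num)]
  have hG : Real.Gamma ((7 + 1) / 2) = 6 := by
    rw [show ((7 : ℝ) + 1) / 2 = ((3 : ℕ) : ℝ) + 1 by norm_num, Real.Gamma_nat_eq_factorial]
    norm_num [Nat.factorial]
  have hp : (1 / 2 : ℝ) ^ (-((7 : ℝ) + 1) / 2) = 16 := by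
    rw [show (1 / 2 : ℝ) = 2⁻¹ by norm_num, Real.inv_rpow (by norm_num),
      ← Real.rpow_neg (by norm_num),
      show (-(-((7 : ℝ) + 1) / 2)) = ((4 : ℕ) : ℝ) by norm_num, Real.rpow_natCast]
    norm_num
  rw [hG, hp]
  norm_num

open Real Set in
theorem radial_eight :
    ∫ y in Ioi (0 : ℝ), y ^ (8 : ℝ) * rexp (-(1 / 2 : ℝ) * y ^ (2 : ℝ))
      = 105 * Real.sqrt (2 * π) / 2 := by
  rw [integral_rpow_mul_exp_neg_mul_rpow (by norm_num) (by norm_num) (by norm_num)]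
  have hG : Real.Gamma ((8 + 1) / 2) = 105 * Real.sqrt π / 16 := by
    have h := Real.Gamma_add_one (s := (1 / 2 : ℝ)) (by norm_num)
    rw [Real.Gamma_one_half_eq] at h
    have h2 := Real.Gamma_add_one (s := (1 / 2 + 1 : ℝ)) (by norm_num)
    rw [h] at h2
    have h3 := Real.Gamma_add_one (s := (1 / 2 + 1 + 1 : ℝ)) (by norm_num)
    rw [h2] at h3
    have h4 := Real.Gamma_add_one (s := (1 / 2 + 1 + 1 + 1 : ℝ)) (by norm_num)
    rw [h3] at h4
    rw [show ((8 : ℝ) + 1) / 2 = 1 / 2 + 1 + 1 + 1 + 1 by norm_num, h4]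
    ring
  have hp : (1 / 2 : ℝ) ^ (-((8 : ℝ) + 1) / 2) = 16 * Real.sqrt 2 := by
    rw [show (1 / 2 : ℝ) = 2⁻¹ by norm_num, Real.inv_rpow (by norm_num),
      ← Real.rpow_neg (by norm_num),
      show (-(-((8 : ℝ) + 1) / 2)) = ((4 : ℕ) : ℝ) + 1 / 2 by norm_num,
      Real.rpow_add (by norm_num), Real.rpow_natCast, ← Real.sqrt_eq_rpow]
    norm_num
  rw [hG, hp, Real.sqrt_mul (by norm_num)]
  ring

/-- The mean norm of the standard Gaussian vector of `ℝ⁸`. -/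
theorem integral_norm_stdGaussian_eight :
    ∫ q, ‖q‖ ∂(stdGaussian (EuclideanSpace ℝ (Fin 8))) = 35 * Real.sqrt (2 * Real.pi) / 32 := by
  rw [H77.integral_norm_stdGaussian_eq]
  have hdim : Module.finrank ℝ (EuclideanSpace ℝ (Fin 8)) - 1 = 7 := by simp
  rw [hdim]
  have hN := H77.radial_conv 7 1
  have hD := H77.radial_conv 7 0
  simp only [pow_one, pow_zero, mul_one] at hN hD
  rw [hN, hD]
  norm_num only [Nat.cast_ofNat, Nat.reduceAdd]
  rw [radial_eight, radial_seven]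
  ring

/-- Projection bound from `ℝ⁸`: every measurable partition of `ℝ⁸` into `n` cells has a
measurable partition of `ℝ³` into `n` cells whose sum of squared Gaussian first moments is at
least the fraction `32768 / (3675 π²)` of the original sum. -/
theorem projection_exists_eight (n : ℕ) (A : Fin n → Set (EuclideanSpace ℝ (Fin 8)))
    (hA : ∀ i, MeasurableSet (A i)) (hdisj : ∀ i j, i ≠ j → Disjoint (A i) (A j))
    (hcover : ⋃ i, A i = Set.univ) :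
    ∃ B : Fin n → Set (EuclideanSpace ℝ (Fin 3)), (∀ i, MeasurableSet (B i)) ∧
      (∀ i j, i ≠ j → Disjoint (B i) (B j)) ∧ ⋃ i, B i = Set.univ ∧
      ∑ i, ‖∫ x in A i, x ∂(stdGaussian (EuclideanSpace ℝ (Fin 8)))‖ ^ 2
        ≤ 3675 * Real.pi ^ 2 / 32768
          * ∑ i, ‖∫ x in B i, x ∂(stdGaussian (EuclideanSpace ℝ (Fin 3)))‖ ^ 2 := by
  have hpi := Real.pi_pos
  have hb : 0 < ∫ q, ‖q‖ ∂(stdGaussian (EE 8)) := by
    rw [integral_norm_stdGaussian_eight]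
    positivity
  obtain ⟨B, hB1, hB2, hB3, hB4⟩ :=
    projection_general isComp8 (by norm_num) hb n A hA hdisj hcover
  refine ⟨B, hB1, hB2, hB3, ?_⟩
  rw [H77.integral_norm_stdGaussian_three, integral_norm_stdGaussian_eight] at hB4
  have e3 : (2 * Real.sqrt (2 / Real.pi)) ^ 2 = 8 / Real.pi := by
    rw [mul_pow, Real.sq_sqrt (by positivity)]
    ring
  have e8 : (35 * Real.sqrt (2 * Real.pi) / 32) ^ 2 = 1225 * Real.pi / 512 := by
    rw [div_pow, mul_pow, Real.sq_sqrt (by positivity)]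
    ring
  rw [e3, e8] at hB4
  have h8 : (0 : ℝ) < 8 / Real.pi := by positivity
  have hB5 := mul_le_mul_of_nonneg_left hB4 (by positivity : (0 : ℝ) ≤ Real.pi / 8)
  have hl : Real.pi / 8 * (8 / Real.pi
      * ∑ i, ‖∫ x in A i, x ∂(stdGaussian (EE 8))‖ ^ 2)
      = ∑ i, ‖∫ x in A i, x ∂(stdGaussian (EE 8))‖ ^ 2 := by
    field_simp
  have hr : Real.pi / 8 * (3 / ((8 : ℕ) : ℝ) * (1225 * Real.pi / 512)
      * ∑ i, ‖∫ x in B i, x ∂(stdGaussian E3)‖ ^ 2)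
      = 3675 * Real.pi ^ 2 / 32768 * ∑ i, ‖∫ x in B i, x ∂(stdGaussian E3)‖ ^ 2 := by
    push_cast
    ring
  rw [hl, hr] at hB5
  exact hB5

end Vale.Agent.Lib.P226.H50P
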